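import Crest.Agent.X212.Sl43.Om
import Crest.Agent.X212.Hp13.TraD
import Crest.Agent.X212.Alg36.Rev

/-!
# X212 / Sl43 (helper43): `SlStmt`, the boundary of a disc slides off discs of the boundary
-/

set_option autoImplicit false
set_option linter.unusedSectionVars false

open Finset Classical

noncomputable section

namespace Crest.Agent.X212.Sl43

open Hp13 hiding sub_cl cl_low cl_mono dp_iff om_low coc_iff exOn_pb exOn_add exOn_neg exOn_congr
open Hk Pt30 Am43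
open Alg36 (Om)
open Kh11 (WS)

section
variable {P : Type} [PartialOrder P] [Fintype P] {X Y G K Z Λ Δ b L : Set P} {w : P → P → ℤ}
  {x y : P} {c : Ch P}

/-- the data of a slide over `b` -/
structure Mo (X Δ : Set P) (w : P → P → ℤ) (b L : Set P) : Prop where
  rg : Rg X
  td : TD X w
  low : IsLowerSet Δ
  sub : Δ ⊆ Om X
  eu1 : eu Δ = 1
  spl : Spl Δ w b L
  vert : ∀ x ∈ b, ∀ v ∈ cl X, x ≤ v → w x v = 0

namespace Mo
variable (h : Mo X Δ w b L)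
include h

theorem bo : b ⊆ Om X := h.spl.l.trans h.sub

theorem one (hy : y ∈ b) (l : x ≤ y) (hx : x ∉ b) : w x y = 1 :=
  (h.spl.dir y hy x ((h.spl.cases (h.low l (h.spl.l hy))).resolve_left hx)).2 l

theorem mv : Mvs X b w :=
  ⟨fun x a v p => h.vert x a v ((dp_iff h.rg.up).1 p).2 p.le, fun _ a _ p k => h.one a p.le k⟩

theorem z : Z1 X w := h.td.toS1.z1 h.rg.up
theorem u : Z1 X (lw w b) := z1_lw h.z h.mv
theorem s1 : S1 X (lw w b) := S1.of_z1 h.u h.rg.up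

/-- the jump -/
theorem jp : ∃ x ∈ Om X, ∃ y ∈ b, x ≤ y ∧ x ∉ b :=
  let ⟨y, a, x, k, l⟩ := h.spl.ne
  ⟨x, h.sub (h.spl.r k), y, a, l, fun j => Set.disjoint_left.1 h.spl.dj j k⟩

theorem chi_eq : chi X (lw w b) = 1 + sc X b := by
  rw [chi_sub, h.td.chi, chi_ind h.rg.up h.bo, sub_neg_eq_add]

theorem sc_nn : 0 ≤ sc X b := by
  obtain ⟨y, a, x, k, l⟩ := h.spl.ne
  have s := h.spl.r.trans h.sub
  have e := sc_union (X := X) h.spl.dj
  rw [h.spl.un, sc_low h.rg h.sub h.low, h.eu1, sc_low h.rg s fun p q j i =>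
    (h.spl.cases (h.low j (h.spl.r i))).resolve_left fun m => (h.spl.dir q m p i).1 j] at e
  have := (om_le h.rg s h.spl.cS k (h.bo a) (Set.disjoint_left.1 h.spl.dj a) (Or.inl l)).1
  omega

theorem ny (hc : c.top ∈ X) (k : Mt b c) : c ∈ CA X (lw w b) :=
  ((ny_iff h.z h.mv).1 ⟨hc, k, fun j => (h.bo j).1 hc⟩).1

theorem conn : Conn (CA X (lw w b)) := by
  obtain ⟨x, -, y, a, l, k⟩ := h.jp
  obtain ⟨d, d1, d2⟩ := Cut21.ex_ca h.rg.up h.z (q := Ch.pr x y l)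
    ⟨(dom_iff' h.rg.up).2 (by simpa using om_sub_cl (h.bo a)), by simp [h.one a l k]⟩
  have m : Mt b d := ⟨y, d2 (by simp), a⟩
  have s : ∀ c, c.top ∈ X → Mt b c → Rch (CA X (lw w b)) c d := fun c p q =>
    (((ws_sr h.rg.up h.rg.nice h.bo).conn_iff.2 h.spl.cT) c ⟨p, q⟩ d ⟨d1.1, m⟩).mono
      fun e j => h.ny j.1 j.2
  have t : ∀ c ∈ CA X (lw w b), Rch (CA X (lw w b)) c d := fun c p => by
    by_cases q : Mt b c
    · exact s c p.1 q
    have o : CA X w \ {c | Mt b c} ⊆ CA X (lw w b) := fun e j => (mx_off j.2).2 j.1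
    obtain ⟨r, r1, r2, e, e1, e2, e3⟩ := (Rch.exit (X := {c | Mt b c})
      (h.td.conn c ((mx_off q).1 p) d d1) q).resolve_left fun j => j.1 m
    exact ((r2.mono o).trans (Rch.of_cm (o r1) (h.ny e1.1 e2) e3)).trans (s e e1.1 e2)
  exact fun c p e q => (t c p).trans (t e q).symm

theorem cv (hK : K ⊆ cl X) (hu : ∀ x ∈ b, ∀ y ∈ K, x ≤ y → y ∈ b) :
    c ∈ Cv K (lw w b) ↔ c ∈ Cv K w ∧ ¬ Mt b c := by
  refine ⟨fun a => ?_, fun a => ⟨a.1.1, (lw_ch a.2 c.bot_mem c.top_mem).symm ▸ a.1.2⟩⟩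
  have k : ¬ Mt b c := fun ⟨x, p, q⟩ => a.2.ne' (lw_to h.mv
    ((dp_iff h.rg.up).2 ⟨c.bot_le_top, hK (a.1 _ c.top_mem)⟩)
    (hu x q _ (a.1 _ c.top_mem) (Ch.le_top p)))
  exact ⟨⟨a.1, lw_ch (e := w) k c.bot_mem c.top_mem ▸ a.2⟩, k⟩

theorem mt_iff (hK : K ⊆ cl X) (hu : ∀ x ∈ b, ∀ y ∈ K, x ≤ y → y ∈ b) (hc : c ∈ Cv K w)
    {d : Ch P} (hd : d ∈ Cv K w) (l : c ≤ d) : Mt b c ↔ Mt b d :=
  ⟨fun k => k.mono l, fun ⟨x, p, q⟩ => ⟨_, c.top_mem, by_contra fun k => by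
    have := h.z.top_top ((dom_iff' h.rg.up).2 (hK (hd.1 _ d.top_mem))) l hc.2
    rw [h.one (hu x q _ (hd.1 _ d.top_mem) (Ch.le_top p)) (Ch.top_mono l) k] at this
    omega⟩⟩

theorem pr_mem (hK : IsLowerSet K) (hy : y ∈ b) (l : x ≤ y) (hx : x ∉ b) (k : y ∈ K) :
    Ch.pr x y l ∈ Cv K w := (mem_cv hK).2 ⟨by simpa using k, by simp [h.one hy l hx]⟩

theorem ncmp_lt (hl : IsLowerSet K) (hK : K ⊆ cl X) (hb : b ⊆ K)
    (hu : ∀ x ∈ b, ∀ y ∈ K, x ≤ y → y ∈ b) : ncmp (Cv K (lw w b)) < ncmp (Cv K w) := by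
  obtain ⟨x, -, y, a, l, k⟩ := h.jp
  refine Hp13.ncmp_lt (fun c j => ((h.cv hK hu).1 j).1) (fun c j d i m => (h.cv hK hu).2 ⟨i, ?_⟩)
    (h.pr_mem hl a l k (hb a)) fun j => ((h.cv hK hu).1 j).2 ⟨y, by simp, a⟩
  have j := (h.cv hK hu).1 j
  exact fun n => j.2 (m.elim (fun m => (h.mt_iff hK hu j.1 i m).2 n) n.mono)

theorem ccv : Conn (Cv (Om X) w) := Cut21.conn_cv h.rg h.td.toS1 h.td.conn h.td.chi.ge

/-- the leaf is a whole side: it is the disc -/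
theorem ines (hs : Sub Y X) (hG : Bd X G) (hb : b ⊆ G)
    (hu : ∀ x ∈ b, ∀ y ∈ Om X, x ≤ y → y ∈ b) : Ines G w := by
  obtain ⟨x, x1, y, a, l, k⟩ := h.jp
  have f : Flat (Om X) (lw w b) := (h.s1.cv_empty om_sub_cl).1 (Set.eq_empty_of_forall_notMem
    fun c j => have j := (h.cv om_sub_cl hu).1 j
      j.2 ((h.ccv _ (h.pr_mem (om_low h.rg.up) a l k (h.bo a)) c j.1).ind ⟨y, by simp, a⟩
        fun _ p _ q => h.mt_iff om_sub_cl hu p q))
  have e1 := chi_even hs h.s1.coc f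
  have e2 := h.u.eu_le_two h.rg.mf subset_rfl h.conn
  have e3 := Cut21.chi_ca h.rg h.s1
  have e4 := h.sc_nn
  have e5 := sc_up h.rg h.bo hu
  rw [h.chi_eq] at e1 e3
  refine ⟨b, hb, (om_le h.rg h.bo h.spl.cT a x1 k (Or.inr l)).2 ?_,
    Or.inl fun p p1 q q1 j => sub_eq_zero.1 (f p (hG.sub p1) q (hG.sub q1) j)⟩
  obtain ⟨n, hn⟩ := e1
  change eu (CA X (lw w b)) ≤ 2 at e2
  omega

section
variable (hx : x ∈ b) (hy : y ∈ Om X) (hy' : y ∉ b) (l : x ≤ y)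
include hx hy hy' l

theorem fr : lw w b x y = 1 := lw_from h.mv ((dp_iff h.rg.up).2 ⟨l, hy.2⟩) hx hy'

theorem ne : Ch.pr x y l ∈ Cv (Om X) (lw w b) :=
  (mem_cv (om_low h.rg.up)).2 ⟨by simpa using hy, by
    rw [Ch.bot_pr, Ch.top_pr, h.fr hx hy hy' l]; exact one_pos⟩

theorem sc_zero : sc X b = 0 := by
  obtain ⟨a, k⟩ := (Cut21.cv_om h.rg.up).1 (h.ne hx hy hy' l)
  obtain ⟨d, d1, d2⟩ := Cut21.ex_ca h.rg.up h.u a
  have e2 := h.u.eu_le_one h.rg.mf subset_rfl h.conn d1 a k (Or.inr d2)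
  have e3 := Cut21.chi_ca h.rg h.s1
  have e4 := h.sc_nn
  rw [h.chi_eq] at e3
  change eu (CA X (lw w b)) ≤ 1 at e2
  omega

theorem td' : TD X (lw w b) :=
  ⟨h.s1, h.conn, by rw [h.chi_eq, h.sc_zero hx hy hy' l, add_zero], _, h.ne hx hy hy' l⟩

theorem back (hG : Bd X G) (hb : b ⊆ G) (ho : On X G w) (k : Ines G (lw w b)) : Ines G w := by
  obtain ⟨Z, z1, z2, z3⟩ := k
  obtain ⟨p, p1, q, q1, j, i⟩ := h.jp
  have yG := hG.clo x (hb hx) y hy l
  have pG := hG.low j (hb q1)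
  have s0 := h.sc_zero hx hy hy' l
  have f0 := h.fr hx hy hy' l
  have f1 := h.one q1 j i
  have so : b ⊆ Z ∨ Disjoint b Z := Flat.sub_or (fun s a t a' m => cb_ind_eq_zero.2
    ((z3.iff (hb a) (hb a') m).1 (lw_to h.mv ((dp_iff h.rg.up).2 ⟨m, (h.bo a').2⟩) a'))) h.spl.cT
  have up : ∀ {v : P → P → ℤ} {W : Set P}, S1 X v → W ⊆ G → EqE G v (cb (ind W)) →
      sc X W = eu W := fun a s e => sc_up h.rg (s.trans hG.sub) fun c m d n o => by_contra fun r => by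
    have := a.nn c d n.2 o
    rw [e c (s m) d (hG.clo c (s m) d n o) o, cb, ind_of_mem m, ind_of_not r] at this
    omega
  have lo : ∀ {v : P → P → ℤ} {W : Set P}, S1 X v → W ⊆ G → EqE G v (-cb (ind W)) →
      IsLowerSet W := fun a s e d c o m => by_contra fun r => by
    have := a.nn c d (hG.sub_cl (s m)) o
    rw [e c (hG.low o (s m)) d (s m) o, Pi.neg_apply, Pi.neg_apply, cb, ind_of_mem m,
      ind_of_not r] at this
    omega
  rcases z3 with e | e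
  · have m := cb_ind_eq_one.1 ((e x (hb hx) y yG l).symm.trans f0)
    have dj := so.resolve_left fun s => m.1 (s hx)
    have s := Set.union_subset hb z1
    have e' : EqE G w (cb (ind (b ∪ Z))) := fun c c1 d d1 o => by
      have := e c c1 d d1 o
      have a : ∀ t, ind (b ∪ Z) t = ind b t + ind Z t := fun t => by
        have : t ∈ b → t ∉ Z := fun r => Set.disjoint_left.1 dj r
        by_cases r : t ∈ b <;> by_cases r' : t ∈ Z <;> simp_all [ind]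
      simp only [Pi.sub_apply, cb, a] at this ⊢
      omega
    refine ⟨_, s, (om_le h.rg (s.trans hG.sub) (conn_union h.spl.cT z2.conn hx m.2 (Or.inl l))
      (Or.inl q1) p1 (cb_ind_eq_one.1 ((e' p pG q (hb q1) j).symm.trans f1)).1 (Or.inr j)).2 ?_,
      Or.inl e'⟩
    rw [← up h.td.toS1 s e', sc_union dj, up h.s1 z1 e, s0, z2.eu, zero_add]
  · have m : x ∈ Z := by_contra fun r => by
      have := ind_nonneg (E := Z) y
      rw [e x (hb hx) y yG l, Pi.neg_apply, Pi.neg_apply, cb, ind_of_not r] at f0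
      omega
    have sb := so.resolve_right fun s => Set.disjoint_left.1 s hx m
    have s : Z \ b ⊆ G := Set.sdiff_subset.trans z1
    have e' : EqE G w (-cb (ind (Z \ b))) := fun c c1 d d1 o => by
      have := e c c1 d d1 o
      have a : ∀ t, ind (Z \ b) t = ind Z t - ind b t := fun t => by
        have : t ∈ b → t ∈ Z := fun r => sb r
        by_cases r : t ∈ b <;> by_cases r' : t ∈ Z <;> simp_all [ind]
      simp only [Pi.sub_apply, Pi.neg_apply, cb, a] at this ⊢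
      omega
    have bt : ∀ c ∈ Cv (Om X) w, c.bot ∈ Z \ b := fun c r => by_contra fun r' => by
      have r := ho.cv hG ▸ r
      have := ind_nonneg (E := Z \ b) c.top
      have a := r.2
      rw [e' _ (r.1 _ c.bot_mem) _ (r.1 _ c.top_mem) c.bot_le_top, Pi.neg_apply, Pi.neg_apply, cb,
        ind_of_not r'] at a
      omega
    have pm := h.pr_mem (om_low h.rg.up) q1 j i (h.bo q1)
    have cn : ∀ a ∈ Z \ b, Rch (Z \ b) a p := fun a a1 => by
      obtain ⟨r, r1, r2, t, -, t2, t3⟩ := (Rch.exit (X := b) (z2.conn a a1.1 q (sb q1))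
        a1.2).resolve_left fun o => o.1 q1
      have o := t3.resolve_right fun o => (lo h.td.toS1 s e' o r1).2 t2
      refine r2.trans ?_
      simpa using (h.ccv _ (h.pr_mem (om_low h.rg.up) t2 o r1.2 (h.bo t2)) _ pm).map
        (f := Ch.bot) fun c c1 d d1 n => Rch.of_cm (bt c c1) (bt d d1) (Or.inr (Ch.bot_anti n))
    refine ⟨_, s, (om_le h.rg (s.trans hG.sub) (fun a a1 c c1 => (cn a a1).trans (cn c c1).symm)
      (by simpa using bt _ pm) (h.bo q1) (fun r => r.2 q1) (Or.inl j)).2 ?_, Or.inr e'⟩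
    have u := sc_union (X := X) (Set.disjoint_sdiff_right (s := b) (t := Z))
    rw [Set.union_sdiff_cancel sb, sc_low h.rg (z1.trans hG.sub) (lo h.s1 z1 e), z2.eu, s0,
      sc_low h.rg (s.trans hG.sub) (lo h.td.toS1 s e')] at u
    omega

end

theorem bd (hG : Bd X G) (ho : On X G w) : b ⊆ G := by
  obtain ⟨p, p1, q, q1, j, i⟩ := h.jp
  have a : q ∈ G := by_contra fun k => by
    have := ho p ⟨p1, fun r => k (hG.clo p r q (h.bo q1) j)⟩ q ⟨h.bo q1, k⟩ j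
    rw [h.one q1 j i] at this
    omega
  exact fun t r => (h.spl.cT q q1 t r).ind a fun c _ d d1 o =>
    ⟨fun n => hG.clo c n d (h.bo d1) o, fun n => hG.low o n⟩

theorem on (hG : Bd X G) (ho : On X G w) : On X G (lw w b) := fun x a y c l =>
  (lw_off (fun k => a.2 (h.bd hG ho k)) fun k => c.2 (h.bd hG ho k)).trans (ho x a y c l)

theorem tr (hb : b ⊆ Λ) (hx : x ∈ b) (hy : y ∈ Om X) (hy' : y ∉ b) (l : x ≤ y) :
    Tr X Λ w (lv0 P) id (lw w b) :=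
  ⟨Desc.refl, h.td' hx hy hy' l, fun _ _ k f p a q c j => (lw_off
    (fun r => Set.disjoint_left.1 k a.1 (hb r)) fun r => Set.disjoint_left.1 k c.1 (hb r)).trans
      (f p a q c j), fun _ a c => h.back hx hy hy' l a (h.bd a c) c,
    Or.inl ⟨-ind b, fun _ _ _ _ _ => by simp [pb, cb]; ring⟩⟩

end Mo

/-- composition of moves that may change the boundary curve -/
theorem tr_trans {t t' : St} {f : t.P → P} {g : t'.P → t.P} {w₁ : t.P → t.P → ℤ}
    {w₂ : t'.P → t'.P → ℤ} (h : Tr X Λ w t f w₁)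
    (hon : ∀ G, Bd X G → On X G w → On (f ⁻¹' X) (f ⁻¹' G) w₁)
    (h' : Tr (f ⁻¹' X) (f ⁻¹' Λ) w₁ t' g w₂) (tw : Tw P t' (f ∘ g))
    (e1 : cl (f ⁻¹' X) = f ⁻¹' cl X) (e2 : Om (f ⁻¹' X) = f ⁻¹' Om X) :
    Tr X Λ w t' (f ∘ g) w₂ := by
  have mf : Monotone f := Desc.mono h.tw
  have mg : Monotone g := Desc.mono (s := lv0 t.P) h'.tw
  refine ⟨tw, h'.td, fun K a b c => ?_, fun G a b c => h.ines G a b (h'.ines (f ⁻¹' G)
    ⟨a.low.preimage mf, e2 ▸ Set.preimage_mono a.sub,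
      fun x hx y hy l => a.clo _ hx _ (by rwa [e2] at hy) (mf l)⟩ (hon G a b) c), ?_⟩
  · have := h'.flat (f ⁻¹' K) (a.preimage mf) (b.preimage f) (by rw [e1]; exact h.flat K a b c)
    rwa [e1] at this
  · have d := h'.drv
    rw [e1] at d
    rcases h.drv with k | k <;> have k := Hp13.exOn_pb mg k <;> rcases d with d | d
    · exact Or.inl (Hp13.exOn_congr (exOn_add d k) fun x y => by simp [pb])
    · exact Or.inr (Hp13.exOn_congr (exOn_add d (exOn_neg k)) fun x y => by simp [pb])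
    · exact Or.inr (Hp13.exOn_congr (exOn_add d k) fun x y => by simp [pb]; ring)
    · exact Or.inl (Hp13.exOn_congr (exOn_add d (exOn_neg k)) fun x y => by simp [pb]; ring)

/-- the hypotheses -/
structure Hy (Y X G Λ : Set P) (w : P → P → ℤ) : Prop where
  sub : Sub Y X
  bd : Bd X G
  low : IsLowerSet Λ
  lg : Λ ⊆ G
  ctr : ∀ D, IsCmp Λ D → Ctr D
  td : TD X w
  on : On X G w

/-- the conclusion -/
def Out (X G Λ : Set P) (w : P → P → ℤ) : Prop :=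
  Ines G w ∨ ∃ t f w', Tr X Λ w t f w' ∧ Flat (f ⁻¹' Λ) w'

/-- a piece of `Λ` -/
structure Cp (Λ Δ : Set P) : Prop where
  low : IsLowerSet Δ
  sub : Δ ⊆ Λ
  up : ∀ x ∈ Δ, ∀ y ∈ Λ, x ≤ y → y ∈ Δ
  eu1 : eu Δ = 1

theorem Cp.sd (h : Cp Λ Δ) : Cp (Ch.top ⁻¹' Λ : Set (Ch P)) (Ch.top ⁻¹' Δ) :=
  ⟨h.low.preimage Ch.top_mono, Set.preimage_mono h.sub,
    fun _ a _ k l => h.up _ a _ k (Ch.top_mono l), (Alg36.ws_sd Δ).eu_eq.trans h.eu1⟩

theorem on_rev (hX : IsUpperSet X) (hG : Bd X G) (h : On X G w) :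
    On (Ch.top ⁻¹' X) (Ch.top ⁻¹' G) (rev w) := by
  rw [On, om_sd']; exact Alg36.flat_rev (hG.low_diff hX) h

namespace Hy
variable (h : Hy Y X G Λ w)
include h

theorem cl : Λ ⊆ cl X := h.lg.trans h.bd.sub_cl

theorem sd : Hy (Ch.top ⁻¹' Y) (Ch.top ⁻¹' X) (Ch.top ⁻¹' G) (Ch.top ⁻¹' Λ) (rev w) :=
  ⟨sub_sd h.sub, ⟨h.bd.low.preimage Ch.top_mono, om_sd' (P := P) ▸ Set.preimage_mono h.bd.sub,
      fun _ a _ k l => h.bd.clo _ a _ (by rwa [om_sd'] at k) (Ch.top_mono l)⟩,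
    h.low.preimage Ch.top_mono, Set.preimage_mono h.lg, fun C k => by
      obtain ⟨D, a, rfl⟩ := (Alg36.ws_sd Λ).isCmp_ex k
      convert (Alg36.ws_sd D).ctr_iff.2 (h.ctr D a) using 1
      exact Set.ext fun c => and_iff_right_of_imp fun j => a.sub j,
    Alg36.td_rev h.sub.up h.td, on_rev h.sub.up h.bd h.on⟩

theorem ncmp_sd : ncmp (Cv (Ch.top ⁻¹' Λ) (rev w)) = ncmp (Cv Λ w) :=
  ws_ncmp (Alg36.ws_cv h.sub.up h.td.toS1 h.low h.cl)

theorem out_sd (k : Out (Ch.top ⁻¹' X) (Ch.top ⁻¹' G) (Ch.top ⁻¹' Λ) (rev w)) : Out X G Λ w :=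
  have r := Alg36.tr_rev h.sub.up h.td
  k.imp (r.ines G h.bd h.on) fun ⟨t, _, w', a, c⟩ => ⟨t, _, w', tr_trans
    (tr_mono r (Set.empty_subset _)) (fun _ => on_rev h.sub.up) a
    ((Desc.sd (lv0 P)).trans a.tw) cl_sd om_sd', c⟩

end Hy

end

/-- the statement for `n` curves -/
def SlN (n : ℕ) : Prop := ∀ (P : Type) [PartialOrder P] [Fintype P] (Y X G Λ : Set P)
  (w : P → P → ℤ), Hy Y X G Λ w → ncmp (Cv Λ w) = n → Out X G Λ w

theorem slStmt : SlStmt := by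
  suffices k : ∀ n, SlN n from fun P _ _ Y X G Λ w a b c d e f g =>
    k _ P Y X G Λ w ⟨a, b, c, d, e, f, g⟩ rfl
  intro n
  induction n using Nat.strong_induction_on with
  | _ n ih =>
  have low : ∀ (P : Type) [PartialOrder P] [Fintype P] (Y X G Λ Δ T S : Set P) (w : P → P → ℤ),
      Hy Y X G Λ w → ncmp (Cv Λ w) = n → Cp Λ Δ → Spl Δ w T S → Flat S w → Out X G Λ w := by
    intro P _ _ Y X G Λ Δ T S w h e c s f
    have h' := h.sd
    have c' := c.sd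
    have s' := s.rev c.low
    have m : Mo _ _ _ _ _ := ⟨h'.sub.toRg, h'.td, c'.low, c'.sub.trans (h'.lg.trans h'.bd.sub),
      c'.eu1, s', fun p a q _ l => f _ ((s.cases (c.low (Ch.bot_anti l) (s.r a.2))).resolve_left
        fun j => (s.dir _ j _ a.2).1 (Ch.bot_anti l)) _ a.2 (Ch.bot_anti l)⟩
    have sb := s'.l.trans c'.sub
    refine h.out_sd ?_
    by_cases k : ∀ x ∈ (Ch.top ⁻¹' Δ ∩ Ch.bot ⁻¹' S : Set (Ch P)), ∀ y ∈ Om (Ch.top ⁻¹' X), x ≤ y →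
        y ∈ (Ch.top ⁻¹' Δ ∩ Ch.bot ⁻¹' S : Set (Ch P))
    · exact Or.inl (m.ines h'.sub h'.bd (sb.trans h'.lg) k)
    push Not at k
    obtain ⟨x, x1, y, y1, l, y2⟩ := k
    have t := m.tr sb x1 y1 y2 l
    have lt := m.ncmp_lt h'.low h'.cl sb fun p a q j i =>
      (s'.cases (c'.up p (s'.l a) q j i)).resolve_right fun r => (s'.dir p a q r).1 i
    exact (ih _ (lt.trans_eq (h.ncmp_sd.trans e)) (Ch P) _ _ _ _ _ ⟨h'.sub, h'.bd, h'.low, h'.lg,
      h'.ctr, t.td, m.on h'.bd h'.on⟩ rfl).imp (t.ines _ h'.bd h'.on) fun ⟨t', g, w', a, d⟩ =>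
        ⟨t', g, w', tr_trans (t := lv0 (Ch P)) t (fun _ => m.on) a a.tw rfl rfl, d⟩
  intro P _ _ Y X G Λ w h e
  by_cases f : Flat Λ w
  · exact Or.inr ⟨lv0 P, id, w, tr_refl h.td, f⟩
  simp only [Flat, not_forall] at f
  obtain ⟨x, x1, y, y1, l, f⟩ := f
  have d := isCmp_cmp x1
  have c : Cp Λ (cmp Λ x) := ⟨fun _ _ i j => d.clopen j (h.low i j.1) (Or.inr i), d.sub,
    fun _ i _ j k => d.clopen i j (Or.inl k), (h.ctr _ d).eu⟩
  obtain ⟨T, S, s, k⟩ := exists_leaf (h.ctr _ d) (cocOn_mono h.td.coc (d.sub.trans h.cl))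
    (fun a _ b j i => h.td.toS1.cases (h.cl j.1) i) fun k =>
      f (k x (mem_cmp_self x1) y (c.up x (mem_cmp_self x1) y y1 l) l)
  rcases k with k | k
  · exact h.out_sd (low _ _ _ _ _ _ _ _ _ h.sd (h.ncmp_sd.trans e) c.sd (s.rev c.low) (flat_rev k))
  · exact low P Y X G Λ _ T S w h e c s k

end Crest.Agent.X212.Sl43
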