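import Crest.Agent.X212.Am43.Am
import Crest.Agent.X212.Cut21.Brg
import Crest.Agent.X212.Kh11.Bas

/-!
# X212 / Sl43 (helper43): subsets of the boundary surface, cutting a contractible set at a jump
-/

set_option autoImplicit false
set_option linter.unusedSectionVars false

open Finset Classical

noncomputable section

namespace Crest.Agent.X212.Sl43

open Hp13 hiding sub_cl cl_low cl_mono dp_iff om_low coc_iff
open Hk Pt30 Am43
open Alg36 (Om)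
open Kh11 (WS)

variable {P : Type} [PartialOrder P] [Fintype P] {X Y W V Δ T S : Set P} {w : P → P → ℤ} {x y : P}

/-- the signed number of chains from `W` into `X` -/
def sc (X W : Set P) : ℤ := ∑ c ∈ univ.filter (fun c : Ch P => c.top ∈ X ∧ c.bot ∈ W), c.sg

theorem sc_union (h : Disjoint W V) : sc X (W ∪ V) = sc X W + sc X V := by
  simp only [sc, sum_filter, ← sum_add_distrib]
  refine sum_congr rfl fun c _ => ?_
  have : c.bot ∈ W → c.bot ∉ V := fun k => Set.disjoint_left.1 h k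
  by_cases a : c.top ∈ X <;> by_cases b : c.bot ∈ W <;> by_cases d : c.bot ∈ V <;> simp_all

theorem sc_low (h : Rg X) (hW : W ⊆ Om X) (hl : IsLowerSet W) : sc X W = eu W := by
  rw [← (ws_sr h.up h.nice hW).eu_eq, (z1_ind h.up).eu_eq h.mf (sr_sub h.up hW) (sr_upper h.up)]
  exact sum_congr (filter_congr fun c _ => and_congr_right fun _ => (mt_low hl).symm) fun _ _ => rfl

theorem sc_up (h : Rg X) (hW : W ⊆ Om X) (hu : ∀ x ∈ W, ∀ y ∈ Om X, x ≤ y → y ∈ W) :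
    sc X W = eu W := by
  have z : Z1 X (cb (ind X)) := z1_ind h.up
  have : IsCoc X (cb (ind X)) := ⟨z.coc⟩
  have s : {c : Ch P | c.top ∈ X ∧ c.bot ∈ W} ⊆ Sr X W := fun c k => ⟨k.1, _, c.bot_mem, k.2⟩
  have q := (s.trans (sr_sub h.up hW)).trans (mx_qe subset_rfl)
  have e : WS {c : Ch P | c.top ∈ X ∧ c.bot ∈ W} (Sr X W) id := WS.of_int' s
    fun c ⟨k, a, a1, a2⟩ => by
      have m : Mt (W ∪ X) c := ⟨a, a1, Or.inl a2⟩
      refine ⟨rs (W ∪ X) c, ⟨h.up (le_tw c.top_mem (Or.inr k)) k,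
        ((mem_rs m).1 (Ch.bot_mem _)).2.resolve_right fun j => (hW a2).1 (h.up (Ch.bot_le
          ((mem_rs m).2 ⟨a1, Or.inl a2⟩)) j)⟩, rs_le m, fun d j l t ht => (mem_rs m).2 ⟨l ht, ?_⟩⟩
      exact (Classical.em (t ∈ X)).symm.imp_left fun i =>
        hu _ j.2 t ⟨i, _, j.1, Ch.le_top ht⟩ (Ch.bot_le ht)
  rw [← (ws_sr h.up h.nice hW).eu_eq, ← e.eu_eq, ← z.eu_pre q,
    eu_lower h.mf z.mono (fun _ k => ⟨_, Ch.top_mem _, k.1⟩) fun p r l k => ?_, z.chiC_pre q]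
  · exact sum_congr (Finset.ext fun c => by simp) fun _ _ => rfl
  · have l' : ch r ≤ ch p := z.ch_le.2 l
    have j := Ind26.cb_ind_pos (ch_mem r).2
    exact ⟨j.2, hu _ k.2 _ ⟨j.1, _, j.2, Ch.bot_le_top _⟩ (Ch.bot_anti l')⟩

theorem chi_ind (h : IsUpperSet X) (hW : W ⊆ Om X) : chi X (cb (ind W)) = -sc X W := by
  simp only [chi, sc, sum_filter, ← sum_neg_distrib, mt_iff h]
  refine sum_congr rfl fun c _ => ?_
  by_cases a : c.top ∈ X
  · have : c.top ∉ W := fun k => (hW k).1 a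
    by_cases b : c.bot ∈ W <;> simp [cb, ind, a, b, this]
  · simp [a]

/-- a connected proper part of the boundary surface -/
theorem om_le (h : Rg X) (hW : W ⊆ Om X) (hc : Conn W) (hx : x ∈ W) (hy : y ∈ Om X) (hy' : y ∉ W)
    (k : Cm x y) : eu W ≤ 1 ∧ (1 ≤ eu W → Ctr W) := by
  obtain ⟨u, hu, l1, l2⟩ : ∃ u ∈ X, x ≤ u ∧ y ≤ u := k.elim
    (fun k => let ⟨u, a, b⟩ := hy.2; ⟨u, a, k.trans b, b⟩)
    fun k => let ⟨u, a, b⟩ := (hW hx).2; ⟨u, a, b, k.trans b⟩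
  have e := ws_sr h.up h.nice hW
  have cm : ∀ t ∈ (Ch.pr y u l2).1, Cm x t := by simpa using ⟨k, Or.inl l1⟩
  have a1 : (Ch.pr y u l2).ins x cm ∈ Sr X W :=
    ⟨(mt_iff h.up).1 ⟨u, Ch.le_ins _ _ _ (by simp), hu⟩, x, mem_insert_self _ _, hx⟩
  have a2 : Ch.pr y u l2 ∈ Qe X (cb (ind X)) := mx_qe subset_rfl (mem_mx_ind.2 (by simp [hu, hy.1]))
  have a3 : Ch.pr y u l2 ∉ Sr X W := fun ⟨_, t, t1, t2⟩ => by
    rcases mem_insert.1 t1 with rfl | t1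
    exacts [hy' t2, (hW t2).1 (mem_singleton.1 t1 ▸ hu)]
  rw [← e.eu_eq, ← e.ctr_iff]
  exact ⟨(z1_ind h.up).eu_le_one h.mf (sr_sub h.up hW) (e.conn_iff.2 hc) a1 a2 a3
    (Or.inr (Ch.le_ins _ _ _)), (z1_ind h.up).ctr h.mf (sr_sub h.up hW) (e.conn_iff.2 hc) a1 a2 a3
    (Or.inr (Ch.le_ins _ _ _))⟩

/-- a closed surface has even Euler characteristic -/
theorem chi_even (h : Sub Y X) (hc : CocOn (cl X) w) (hf : Flat (Om X) w) : Even (chi X w) := by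
  obtain ⟨g, g0, g1⟩ := ext_bnd h.up h.amb.up h.sub h.amb.bnd hc hf
  have e : chi X w = chi Y (cb g) := by
    simp only [chi, sum_filter, mt_iff h.up, mt_iff h.amb.up]
    refine sum_congr rfl fun c _ => ?_
    by_cases a : c.top ∈ Y
    · rw [if_pos a, cb, ← g1 _ _ (sub_cl a) c.bot_le_top, Hk.ext]
      by_cases b : c.top ∈ X
      · rw [if_pos b, if_pos (sub_cl b)]
      · rw [if_neg b]
        split_ifs with d
        · rw [hf _ (om_low h.up c.bot_le_top ⟨b, d⟩) _ ⟨b, d⟩ c.bot_le_top, mul_zero]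
        · simp
    · rw [if_neg a, if_neg fun b => a (h.sub b)]
  rw [e, chi_cb h.amb.mf g0]
  exact (even_neg_two).mul_right _

theorem conn_union (hW : Conn W) (hV : Conn V) (hx : x ∈ W) (hy : y ∈ V) (k : Cm x y) :
    Conn (W ∪ V) := by
  have a : ∀ t ∈ W ∪ V, Rch (W ∪ V) t x := fun t ht => ht.elim
    (fun j => (hW t j x hx).mono Set.subset_union_left) fun j =>
      ((hV t j y hy).mono Set.subset_union_right).trans (Rch.of_cm (Or.inr hy) (Or.inl hx) k.symm)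
  exact fun s hs t ht => (a s hs).trans (a t ht).symm

/-- `Δ` is cut along jumps into an upper part `T` and a lower part `S` -/
structure Spl (Δ : Set P) (w : P → P → ℤ) (T S : Set P) : Prop where
  un : T ∪ S = Δ
  cT : Conn T
  cS : Conn S
  dir : ∀ x ∈ T, ∀ y ∈ S, ¬ x ≤ y ∧ (y ≤ x → w y x = 1)
  ne : ∃ x ∈ T, ∃ y ∈ S, y ≤ x

theorem Spl.dj (h : Spl Δ w T S) : Disjoint T S :=
  Set.disjoint_left.2 fun x a b => (h.dir x a x b).1 le_rfl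

theorem Spl.l (h : Spl Δ w T S) : T ⊆ Δ := h.un ▸ Set.subset_union_left
theorem Spl.r (h : Spl Δ w T S) : S ⊆ Δ := h.un ▸ Set.subset_union_right
theorem Spl.cases (h : Spl Δ w T S) (hx : x ∈ Δ) : x ∈ T ∨ x ∈ S := by rwa [← h.un] at hx

/-- a region: joined in the level of `g` -/
def Rf (Δ : Set P) (g : P → ℤ) (x : P) : Set P := cmp {y | y ∈ Δ ∧ g y = g x} x

theorem Rf.step {g : P → ℤ} {a b : P} (hb : b ∈ Δ) (e : g b = g a) (k : Cm a b) (ha : a ∈ Rf Δ g x) :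
    b ∈ Rf Δ g x := ⟨⟨hb, e.trans ha.1.2⟩, ha.2.trans (Rch.of_cm ha.1 ⟨hb, e.trans ha.1.2⟩ k)⟩

/-- the cut at a jump -/
theorem exists_spl (hΔ : Ctr Δ) {g : P → ℤ} (hg : ∀ a ∈ Δ, ∀ b ∈ Δ, a ≤ b → w a b = g b - g a)
    (h01 : ∀ a ∈ Δ, ∀ b ∈ Δ, a ≤ b → g b = g a ∨ g b = g a + 1) (hx : x ∈ Δ) (hy : y ∈ Δ)
    (l : x ≤ y) (e : g y = g x + 1) : ∃ T S, Spl Δ w T S ∧ x ∈ S ∧ y ∈ T ∧
      ∀ a ∈ S, ∀ b ∈ T, a ≤ b → a ∈ Rf Δ g x := by
  have x0 : x ∈ Rf Δ g x := mem_cmp_self ⟨hx, rfl⟩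
  have y0 : y ∈ Rf Δ g y := mem_cmp_self ⟨hy, rfl⟩
  obtain ⟨u, hu⟩ := hΔ.ex ℤ (fun a b => if a ∈ Rf Δ g x ∧ b ∈ Rf Δ g y then 1 else 0)
    fun a ha b hb c hc h1 h2 => by
      have i1 : g b = g a → (a ∈ Rf Δ g x ↔ b ∈ Rf Δ g x) := fun k =>
        ⟨Rf.step hb k (Or.inl h1), Rf.step ha k.symm (Or.inr h1)⟩
      have i2 : g c = g b → (b ∈ Rf Δ g y ↔ c ∈ Rf Δ g y) := fun k =>
        ⟨Rf.step hc k (Or.inl h2), Rf.step hb k.symm (Or.inr h2)⟩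
      have j1 : ∀ t, t ∈ Rf Δ g x → g t = g x := fun _ k => k.1.2
      have j2 : ∀ t, t ∈ Rf Δ g y → g t = g y := fun _ k => k.1.2
      have := h01 a ha b hb h1
      have := h01 b hb c hc h2
      have := h01 a ha c hc (h1.trans h2)
      grind
  beta_reduce at hu
  have ux : ∀ a ∈ Rf Δ g x, u a = u x := fun a ha => (ha.2.eq fun s hs t ht k => by
    have := hu s hs.1 t ht.1 k
    rw [if_neg fun j => by have := j.2.1.2; have := ht.2; omega] at this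
    omega).symm
  have uy : ∀ a ∈ Rf Δ g y, u a = u y := fun a ha => (ha.2.eq fun s hs t ht k => by
    have := hu s hs.1 t ht.1 k
    rw [if_neg fun j => by have := j.1.1.2; have := hs.2; omega] at this
    omega).symm
  have uxy : u y = u x + 1 := by have := hu x hx y hy l; rw [if_pos ⟨x0, y0⟩] at this; omega
  have st : ∀ a ∈ Δ, ∀ b ∈ Δ, a ≤ b → u b = u a ∨ a ∈ Rf Δ g x ∧ b ∈ Rf Δ g y := fun a ha b hb k =>
    or_iff_not_imp_right.2 fun j => by have := hu a ha b hb k; rw [if_neg j] at this; omega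
  have rx : ∀ a ∈ Rf Δ g x, Rch {t | t ∈ Δ ∧ u t = u x} a x := fun a ha =>
    ((isCmp_cmp (E := {y | y ∈ Δ ∧ g y = g x}) ⟨hx, rfl⟩).conn a ha x x0).mono
      fun t ht => ⟨ht.1.1, ux t ht⟩
  have ry : ∀ a ∈ Rf Δ g y, Rch {t | t ∈ Δ ∧ u t = u y} a y := fun a ha =>
    ((isCmp_cmp (E := {t | t ∈ Δ ∧ g t = g y}) ⟨hy, rfl⟩).conn a ha y y0).mono
      fun t ht => ⟨ht.1.1, uy t ht⟩
  have key : ∀ a ∈ Δ, (u a = u x ∧ Rch {t | t ∈ Δ ∧ u t = u x} a x) ∨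
      (u a = u y ∧ Rch {t | t ∈ Δ ∧ u t = u y} a y) := fun a ha =>
    (hΔ.conn x hx a ha).ind (p := fun a => (u a = u x ∧ Rch {t | t ∈ Δ ∧ u t = u x} a x) ∨
      (u a = u y ∧ Rch {t | t ∈ Δ ∧ u t = u y} a y)) (Or.inl ⟨rfl, Rch.rfl⟩) fun s hs t ht k => by
      rcases st s hs t ht k with j | j
      · have : ∀ z, (u s = u z ∧ Rch {t | t ∈ Δ ∧ u t = u z} s z) ↔
            (u t = u z ∧ Rch {t | t ∈ Δ ∧ u t = u z} t z) := fun z => ⟨fun i => ⟨j.trans i.1,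
          (Rch.of_cm (E := {t | t ∈ Δ ∧ u t = u z}) ⟨ht, j.trans i.1⟩ ⟨hs, i.1⟩ (Or.inr k)).trans i.2⟩,
          fun i => ⟨j.symm.trans i.1, (Rch.of_cm (E := {t | t ∈ Δ ∧ u t = u z})
            ⟨hs, j.symm.trans i.1⟩ ⟨ht, i.1⟩ (Or.inl k)).trans i.2⟩⟩
        exact or_congr (this x) (this y)
      · exact iff_of_true (Or.inl ⟨ux s j.1, rx s j.1⟩) (Or.inr ⟨uy t j.2, ry t j.2⟩)
  have cr : ∀ a ∈ Δ, ∀ b ∈ Δ, u a = u x → u b = u y → a ≤ b → a ∈ Rf Δ g x ∧ b ∈ Rf Δ g y :=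
    fun a ha b hb i j k => (st a ha b hb k).resolve_left (by omega)
  refine ⟨{t | t ∈ Δ ∧ u t = u y}, {t | t ∈ Δ ∧ u t = u x}, ⟨Set.ext fun a => ⟨fun k => k.elim
    And.left And.left, fun k => (key a k).symm.imp (fun j => ⟨k, j.1⟩) fun j => ⟨k, j.1⟩⟩,
    fun a ha b hb => ?_, fun a ha b hb => ?_, fun a ha b hb => ⟨fun k => ?_, fun k => ?_⟩,
    ⟨y, ⟨hy, rfl⟩, x, ⟨hx, rfl⟩, l⟩⟩, ⟨hx, rfl⟩, ⟨hy, rfl⟩,
    fun a ha b hb k => (cr a ha.1 b hb.1 ha.2 hb.2 k).1⟩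
  · exact ((key a ha.1).resolve_left fun k => by have := k.1; have := ha.2; omega).2.trans
      ((key b hb.1).resolve_left fun k => by have := k.1; have := hb.2; omega).2.symm
  · exact ((key a ha.1).resolve_right fun k => by have := k.1; have := ha.2; omega).2.trans
      ((key b hb.1).resolve_right fun k => by have := k.1; have := hb.2; omega).2.symm
  · rcases st a ha.1 b hb.1 k with j | j
    · have := ha.2; have := hb.2; omega
    · have := ux a j.1; have := ha.2; omega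
  · have j := cr b hb.1 a ha.1 hb.2 ha.2 k
    have := j.1.1.2
    have := j.2.1.2
    rw [hg b hb.1 a ha.1 k]
    omega

/-- a side without jumps -/
theorem exists_leaf (hΔ : Ctr Δ) (hc : CocOn Δ w)
    (h01 : ∀ a ∈ Δ, ∀ b ∈ Δ, a ≤ b → w a b = 0 ∨ w a b = 1) (hn : ¬ Flat Δ w) :
    ∃ T S, Spl Δ w T S ∧ (Flat T w ∨ Flat S w) := by
  obtain ⟨g, hg⟩ := hΔ.ex ℤ w hc
  have k01 : ∀ a ∈ Δ, ∀ b ∈ Δ, a ≤ b → g b = g a ∨ g b = g a + 1 := fun a ha b hb l => by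
    have := h01 a ha b hb l; have := hg a ha b hb l; omega
  have jp : ∀ A ⊆ Δ, ¬ Flat A w → ∃ x ∈ A, ∃ y ∈ A, x ≤ y ∧ g y = g x + 1 := fun A hA k => by
    by_contra j
    exact k fun x a y b l => by
      have := hg x (hA a) y (hA b) l
      have := (k01 x (hA a) y (hA b) l).resolve_right fun i => j ⟨x, a, y, b, l, i⟩
      omega
  obtain ⟨A, ⟨B, hA⟩, hmin⟩ := Set.exists_min_image {A | ∃ B, Spl Δ w A B ∨ Spl Δ w B A} Set.ncard
    (Set.toFinite _) (by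
      obtain ⟨x, a, y, b, l, i⟩ := jp Δ subset_rfl hn
      obtain ⟨T, S, k, -⟩ := exists_spl hΔ hg k01 a b l i
      exact ⟨T, S, Or.inl k⟩)
  suffices k : Flat A w from hA.elim (fun j => ⟨A, B, j, Or.inl k⟩) fun j => ⟨B, A, j, Or.inr k⟩
  by_contra k
  have sA : A ⊆ Δ := hA.elim Spl.l Spl.r
  have sB : B ⊆ Δ := hA.elim Spl.r Spl.l
  have cs : ∀ t ∈ Δ, t ∉ B → t ∈ A := fun t a b =>
    hA.elim (fun j => (j.cases a).resolve_right b) fun j => (j.cases a).resolve_left b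
  have dj : ∀ t ∈ A, t ∉ B := fun t a b =>
    hA.elim (fun j => Set.disjoint_left.1 j.dj a b) fun j => Set.disjoint_left.1 j.dj b a
  have cr : ∀ s ∈ Δ, ∀ t ∈ Δ, s ≤ t → g s = g t → (s ∈ A ↔ t ∈ A) := fun s a t b l e => by
    have := hg s a t b l
    refine ⟨fun i => cs t b fun j => ?_, fun i => cs s a fun j => ?_⟩ <;> rcases hA with m | m
    · exact (m.dir s i t j).1 l
    · have := (m.dir t j s i).2 l; omega
    · have := (m.dir t i s j).2 l; omega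
    · exact (m.dir s j t i).1 l
  obtain ⟨x, a, y, b, l, i⟩ := jp A sA k
  obtain ⟨T, S, m, x1, y1, rf⟩ := exists_spl hΔ hg k01 (sA a) (sA b) l i
  have fl : Flat B (cb (ind T)) := fun s hs t ht j => cb_ind_eq_zero.2
    ⟨fun o => (m.cases (sB ht)).resolve_right fun o' => (m.dir s o t o').1 j, fun o =>
      (m.cases (sB hs)).resolve_right fun o' => dj s ((rf s o' t o j).2.ind a
        fun p hp q hq r => cr p hp.1 q hq.1 r (hp.2.trans hq.2.symm)) hs⟩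
  rcases fl.sub_or (hA.elim Spl.cS Spl.cT) with j | j
  · exact (hmin S ⟨T, Or.inr m⟩).not_gt (Set.ncard_lt_ncard ⟨fun t o => cs t (m.r o) fun o' =>
      Set.disjoint_left.1 m.dj (j o') o, fun o => Set.disjoint_left.1 m.dj y1 (o b)⟩)
  · exact (hmin T ⟨S, Or.inl m⟩).not_gt (Set.ncard_lt_ncard ⟨fun t o => cs t (m.l o) fun o' =>
      Set.disjoint_left.1 j o' o, fun o => Set.disjoint_left.1 m.dj (o a) x1⟩)

theorem conn_bot (hT : T ⊆ Δ) (h : Conn T) : Conn (Ch.top ⁻¹' Δ ∩ Ch.bot ⁻¹' T : Set (Ch P)) := by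
  have a : ∀ c ∈ (Ch.top ⁻¹' Δ ∩ Ch.bot ⁻¹' T : Set (Ch P)),
      Rch (Ch.top ⁻¹' Δ ∩ Ch.bot ⁻¹' T) c (Ch.pt c.bot) := fun c k =>
    Rch.of_cm k ⟨by simpa using hT k.2, by simpa using k.2⟩ (Or.inr (Ch.pt_le.2 c.bot_mem))
  refine fun c k d j => (a c k).trans (Rch.trans ((h _ k.2 _ j.2).map fun s hs t ht l => ?_)
    (a d j).symm)
  have m : Ch.pr s t l ∈ (Ch.top ⁻¹' Δ ∩ Ch.bot ⁻¹' T : Set (Ch P)) :=
    ⟨by simpa using hT ht, by simpa using hs⟩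
  have n : ∀ s ∈ T, Ch.pt s ∈ (Ch.top ⁻¹' Δ ∩ Ch.bot ⁻¹' T : Set (Ch P)) := fun s hs =>
    ⟨by simpa using hT hs, by simpa using hs⟩
  exact (Rch.of_cm (n s hs) m (Or.inl (by simp [Ch.pt_le]))).trans
    (Rch.of_cm m (n t ht) (Or.inr (by simp [Ch.pt_le])))

theorem Spl.rev (h : Spl Δ w T S) (hl : IsLowerSet Δ) : Spl (Ch.top ⁻¹' Δ) (rev w)
    (Ch.top ⁻¹' Δ ∩ Ch.bot ⁻¹' S) (Ch.top ⁻¹' Δ ∩ Ch.bot ⁻¹' T) := by
  refine ⟨Set.ext fun c => ⟨fun k => k.elim And.left And.left, fun k =>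
    (h.cases (hl c.bot_le_top k)).symm.imp (⟨k, ·⟩) (⟨k, ·⟩)⟩, conn_bot h.r h.cS, conn_bot h.l h.cT,
    fun c a d b => ⟨fun l => (h.dir _ b.2 _ a.2).1 (Ch.bot_anti l),
      fun l => (h.dir _ b.2 _ a.2).2 (Ch.bot_anti l)⟩, ?_⟩
  obtain ⟨x, a, y, b, l⟩ := h.ne
  exact ⟨Ch.pr y x l, ⟨by simpa using h.l a, by simpa using b⟩, Ch.pt x,
    ⟨by simpa using h.l a, by simpa using a⟩, by simp [Ch.pt_le]⟩

theorem flat_rev (h : Flat T w) : Flat (Ch.top ⁻¹' Δ ∩ Ch.bot ⁻¹' T : Set (Ch P)) (rev w) :=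
  fun _ a _ b l => h _ b.2 _ a.2 (Ch.bot_anti l)

end Crest.Agent.X212.Sl43
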